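import Vale.Agent.P308.Count

/-!
# P308: near-perfect and perfect matchings in graphs of bounded independence number

If `G` has a perfect matching, the number of near-perfect matchings is at most
`n ^ (4 (α(G) + 1)^2)` times the number of perfect matchings.
-/

namespace Vale.Agent.Results.P308.BoundedIndependence

/-- `Z(G)`: the number of perfect matchings of `G`. -/
noncomputable def numPerfect {V : Type} (G : SimpleGraph V) : ℕ :=
  Nat.card {M : G.Subgraph // M.IsPerfectMatching}

/-- The number of near-perfect matchings of `G`: matchings that leave exactly two vertices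
uncovered. -/
noncomputable def numNearPerfect {V : Type} (G : SimpleGraph V) : ℕ :=
  Nat.card {M : G.Subgraph // M.IsMatching ∧ M.vertsᶜ.ncard = 2}

/-- For every finite simple graph `G` on `n` vertices that has a perfect matching,
`numNearPerfect G ≤ n ^ (4 (α(G) + 1)^2) * numPerfect G`, where `α(G)` is the independence
number; in particular, for every fixed `k`, the ratio is at most `n ^ (4 (k + 1)^2)` on the class
of all graphs with `α(G) ≤ k`. -/
theorem result :
    (∀ (V : Type) [Fintype V] (G : SimpleGraph V), numPerfect G ≠ 0 →
      numNearPerfect G ≤ Fintype.card V ^ (4 * (G.indepNum + 1) ^ 2) * numPerfect G) ∧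
    ∀ k : ℕ, ∀ (V : Type) [Fintype V] (G : SimpleGraph V),
      (∀ s : Finset V, G.IsIndepSet (s : Set V) → s.card ≤ k) → numPerfect G ≠ 0 →
      numNearPerfect G ≤ Fintype.card V ^ (4 * (k + 1) ^ 2) * numPerfect G := by
  classical
  refine ⟨?_, ?_⟩
  · intro V _ G hne
    exact Vale.P308.main (fun s hs => SimpleGraph.IsIndepSet.card_le_indepNum hs) hne
  · intro k V _ G hα hne
    exact Vale.P308.main hα hne

end Vale.Agent.Results.P308.BoundedIndependence
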